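import Vale.Agent.P136.H969.Lim

set_option linter.all false

/-! Continuity of the displacement-to-traction map in the coefficients. -/

open MeasureTheory Filter Topology
open scoped ContDiff

namespace Vale.Agent.P136.H969

open Vale.Agent.P136 Vale.Agent.P136.BD
open Vale.Agent.P136.Exist.Rough (SC)

/-- squared `L²` norm of a gradient. -/
noncomputable def N2 (Ω : Set E3) (G : Fin 3 → Fin 3 → E3 → ℝ) : ℝ :=
  ∑ i, ∑ j, ∫ x in Ω, (G i j x) ^ 2

lemma N2_nonneg (Ω : Set E3) (G : Fin 3 → Fin 3 → E3 → ℝ) : 0 ≤ N2 Ω G :=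
  Finset.sum_nonneg fun i _ => Finset.sum_nonneg fun j _ =>
    integral_nonneg fun _ => sq_nonneg _

lemma N2_eq {Ω : Set E3} {G : Fin 3 → Fin 3 → E3 → ℝ} (hG : MemG Ω G) :
    N2 Ω G = ∫ x in Ω, ∑ i, ∑ j, (G i j x) ^ 2 := by
  have hs : ∀ i j, Integrable (fun x => (G i j x) ^ 2) (volume.restrict Ω) := fun i j =>
    BD.Rough.sq_int' (hG i j)
  unfold N2
  rw [integral_finsetSum _ fun i _ => integrable_finsetSum _ fun j _ => hs i j]
  exact Finset.sum_congr rfl fun i _ => (integral_finsetSum _ fun j _ => hs i j).symm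

lemma N2_int {Ω : Set E3} {G : Fin 3 → Fin 3 → E3 → ℝ} (hG : MemG Ω G) :
    Integrable (fun x => ∑ i, ∑ j, (G i j x) ^ 2) (volume.restrict Ω) :=
  integrable_finsetSum _ fun i _ => integrable_finsetSum _ fun j _ => BD.Rough.sq_int' (hG i j)

/-- bound of the form, with a free parameter. -/
lemma form_bound {Ω : Set E3} (hm : MeasurableSet Ω) {lam mu : E3 → ℝ} {k s : ℝ} (hs : 0 < s)
    (hk : ∀ x ∈ Ω, |lam x| ≤ k ∧ |mu x| ≤ k) {G H : Fin 3 → Fin 3 → E3 → ℝ}
    (hG : MemG Ω G) (hH : MemG Ω H) :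
    |form Ω lam mu G H| ≤ 5 * k ^ 2 / (2 * s) * N2 Ω G + 5 * s / 2 * N2 Ω H := by
  rw [N2_eq hG, N2_eq hH, BD.form_eq, ← integral_const_mul, ← integral_const_mul,
    ← integral_add ((N2_int hG).const_mul _) ((N2_int hH).const_mul _), ← Real.norm_eq_abs]
  refine norm_integral_le_of_norm_le (((N2_int hG).const_mul _).add ((N2_int hH).const_mul _)) ?_
  filter_upwards [ae_restrict_mem hm] with x hx
  have a3 := fq_bound _ _ k (hk x hx).1 (hk x hx).2 (fun i j => G i j x) (fun i j => H i j x) s hs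
  have a4 := eq2_le_sum (fun i j => G i j x)
  have a5 := eq2_le_sum (fun i j => H i j x)
  rw [Real.norm_eq_abs]
  have a6 := mul_le_mul_of_nonneg_left a4 (by positivity : 0 ≤ 5 * k ^ 2 / (2 * s))
  have a7 := mul_le_mul_of_nonneg_left a5 (by positivity : 0 ≤ 5 * s / 2)
  linarith only [a3, a6, a7]

lemma N2_add_le {Ω : Set E3} {G H : Fin 3 → Fin 3 → E3 → ℝ} (hG : MemG Ω G) (hH : MemG Ω H) :
    N2 Ω H ≤ 2 * N2 Ω G + 2 * N2 Ω (fun i j x => H i j x - G i j x) := by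
  have hD : MemG Ω (fun i j x => H i j x - G i j x) := MemG.sub hH hG
  rw [N2_eq hG, N2_eq hH, N2_eq hD, ← integral_const_mul, ← integral_const_mul,
    ← integral_add ((N2_int hG).const_mul _) ((N2_int hD).const_mul _)]
  refine integral_mono (N2_int hH) (((N2_int hG).const_mul _).add ((N2_int hD).const_mul _))
    fun x => ?_
  simp only [Finset.mul_sum, ← Finset.sum_add_distrib]
  refine Finset.sum_le_sum fun i _ => Finset.sum_le_sum fun j _ => ?_
  nlinarith [sq_nonneg (H i j x - 2 * G i j x)]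

/-- the comparison estimate. -/
theorem dn_cont {Ω : Set E3} (ho : IsOpen Ω) (hb : Bornology.IsBounded Ω) {lam mu : E3 → ℝ}
    (hp : SC Ω lam mu) {u f g : H1 Ω} (hu : SameTrace u f) (hw : WeakSol lam mu u)
    {ε : ℝ} (hε : 0 < ε) :
    ∃ η > 0, ∀ lam' mu' : E3 → ℝ, Continuous lam' → Continuous mu' →
      (∀ x ∈ Ω, |lam x - lam' x| ≤ η ∧ |mu x - mu' x| ≤ η) →
      ∀ u' : H1 Ω, SameTrace u' f → WeakSol lam' mu' u' →
        |form Ω lam mu u.der g.der - form Ω lam' mu' u'.der g.der| ≤ ε := by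
  have hm := ho.measurableSet
  have hl := hp.lam_smooth.continuous
  have hmu := hp.mu_smooth.continuous
  obtain ⟨c, hc, hco⟩ := hp.coer
  obtain ⟨M1, hM1, h1⟩ := coef_bdd hb hl
  obtain ⟨M2, hM2, h2⟩ := coef_bdd hb hmu
  obtain ⟨M, hM, hMb⟩ : ∃ M : ℝ, 0 < M ∧ ∀ x ∈ Ω, |lam x| ≤ M ∧ |mu x| ≤ M :=
    ⟨M1 + M2 + 1, by positivity, fun x hx =>
      ⟨(h1 x (subset_closure hx)).trans (by linarith),
        (h2 x (subset_closure hx)).trans (by linarith)⟩⟩
  obtain ⟨A, hA⟩ : ∃ A, A = N2 Ω u.der := ⟨_, rfl⟩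
  obtain ⟨Γ, hΓ⟩ : ∃ Γ, Γ = N2 Ω g.der := ⟨_, rfl⟩
  have hA0 : 0 ≤ A := hA ▸ N2_nonneg _ _
  have hΓ0 : 0 ≤ Γ := hΓ ▸ N2_nonneg _ _
  -- parameters
  obtain ⟨s, hs, hsΓ⟩ : ∃ s > 0, 5 * s / 2 * Γ ≤ ε / 4 := by
    refine ⟨ε / (10 * (Γ + 1)), by positivity, ?_⟩
    rw [mul_div_assoc', div_div, div_mul_eq_mul_div, div_le_div_iff₀ (by positivity) (by positivity)]
    nlinarith
  obtain ⟨η, hη, hη1, hη2, hη3⟩ : ∃ η > 0, 15 * η ≤ c ∧
      5 * M ^ 2 / (2 * s) * (10 * η * A / c) ≤ ε / 4 ∧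
      5 * η / 2 * (2 * A + 2 * (10 * η * A / c) + Γ) ≤ ε / 4 := by
    have t1 : Tendsto (fun η : ℝ => 15 * η) (𝓝[>] 0) (𝓝 (15 * 0)) :=
      ((continuous_const.mul continuous_id).tendsto 0).mono_left nhdsWithin_le_nhds
    have t2 : Tendsto (fun η : ℝ => 5 * M ^ 2 / (2 * s) * (10 * η * A / c)) (𝓝[>] 0)
        (𝓝 (5 * M ^ 2 / (2 * s) * (10 * 0 * A / c))) := by
      refine Tendsto.mono_left ?_ nhdsWithin_le_nhds
      exact Continuous.tendsto (by fun_prop) 0
    have t3 : Tendsto (fun η : ℝ => 5 * η / 2 * (2 * A + 2 * (10 * η * A / c) + Γ)) (𝓝[>] 0)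
        (𝓝 (5 * 0 / 2 * (2 * A + 2 * (10 * 0 * A / c) + Γ))) := by
      refine Tendsto.mono_left ?_ nhdsWithin_le_nhds
      exact Continuous.tendsto (by fun_prop) 0
    have e1 := t1.eventually (gt_mem_nhds (show 15 * (0:ℝ) < c by simpa using hc))
    have e2 := t2.eventually (gt_mem_nhds
      (show 5 * M ^ 2 / (2 * s) * (10 * 0 * A / c) < ε / 4 by simp; positivity))
    have e3 := t3.eventually (gt_mem_nhds
      (show 5 * 0 / 2 * (2 * A + 2 * (10 * 0 * A / c) + Γ) < ε / 4 by simp; positivity))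
    obtain ⟨η, ⟨⟨⟨a1, a2⟩, a3⟩, a4⟩⟩ := ((((e1.and e2).and e3).and self_mem_nhdsWithin).exists)
    exact ⟨η, a4, a1.le, a2.le, a3.le⟩
  refine ⟨η, hη, fun lam' mu' hl' hmu' hd u' hu' hw' => ?_⟩
  have mu1 : MemG Ω u.der := u.der_mem
  have mu2 : MemG Ω u'.der := u'.der_mem
  have mg : MemG Ω g.der := g.der_mem
  obtain ⟨w, hwd⟩ : ∃ w : Fin 3 → Fin 3 → E3 → ℝ, w = fun i j x => u'.der i j x - u.der i j x :=
    ⟨_, rfl⟩
  have mw : MemG Ω w := hwd ▸ MemG.sub mu2 mu1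
  obtain ⟨X, hX⟩ : ∃ X, X = N2 Ω w := ⟨_, rfl⟩
  have hX0 : 0 ≤ X := hX ▸ N2_nonneg _ _
  -- orthogonality
  obtain ⟨φ, hφ, ht⟩ := BD.Rough.approx_diff hb hu' hu
  have orth : ∀ (l m : E3 → ℝ), Continuous l → Continuous m → ∀ v : H1 Ω, WeakSol l m v →
      form Ω l m v.der w = 0 := by
    intro l m hl hm' v hv
    have t1 := form_tendsto hm hb hl hm' (D := fun n i j => pd i (φ n j)) v.der_mem mw
      (fun n => BD.Rough.memG_test hb (hφ n)) (by rw [hwd]; exact ht)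
    have t0 : ∀ n, form Ω l m v.der (fun i j => pd i (φ n j)) = 0 := fun n => hv _ (hφ n)
    simp_rw [t0] at t1
    exact (tendsto_nhds_unique t1 tendsto_const_nhds)
  have o1 := orth lam mu hl hmu u hw
  have o2 := orth lam' mu' hl' hmu' u' hw'
  have hcoef : ∀ {G H : Fin 3 → Fin 3 → E3 → ℝ}, MemG Ω G → MemG Ω H →
      form Ω (fun x => lam x - lam' x) (fun x => mu x - mu' x) G H =
        form Ω lam mu G H - form Ω lam' mu' G H := fun hG hH =>
    form_coef_sub hm hb hl hmu hl' hmu' hG hH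
  have hco' := BD.Rough.coer_diff hm hb hl hmu hco hu' hu
  have hco2 : c * X ≤ form Ω lam mu w w := by
    rw [hX, hwd]; exact hco'
  have e1 : form Ω lam mu w w = form Ω (fun x => lam x - lam' x) (fun x => mu x - mu' x)
      u'.der w := by
    rw [hcoef mu2 mw, o2, sub_zero]
    have : form Ω lam mu w w = form Ω lam mu u'.der w - form Ω lam mu u.der w :=
      (congrArg (fun z => form Ω lam mu z w) hwd).trans
        (form_sub_left hm hb hl hmu mw mu2 mu1)
    rw [this, o1, sub_zero]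
  have b1 := form_bound hm hη (k := η) hd mu2 mw
  have b2 := form_bound hm hη (k := η) hd mu2 mg
  have b3 := form_bound hm hs (k := M) hMb mw mg
  have n1 : N2 Ω u'.der ≤ 2 * A + 2 * X := by
    have := N2_add_le mu1 mu2
    rw [hA, hX, hwd]
    exact this
  have hcs : 5 * η ^ 2 / (2 * η) = 5 * η / 2 := by field_simp
  rw [hcs] at b1 b2
  rw [← hX] at b1 b3
  rw [← hΓ] at b2 b3
  -- the bound on X
  have hXb : X ≤ 10 * η * A / c := by
    rw [le_div_iff₀ hc]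
    have k1 : c * X ≤ 5 * η / 2 * N2 Ω u'.der + 5 * η / 2 * X :=
      hco2.trans (e1 ▸ (le_abs_self _).trans b1)
    have k2 : 5 * η / 2 * N2 Ω u'.der ≤ 5 * η / 2 * (2 * A + 2 * X) :=
      mul_le_mul_of_nonneg_left n1 (by positivity)
    have k3 : 15 * η * X ≤ c * X := mul_le_mul_of_nonneg_right hη1 hX0
    nlinarith
  have e2 : form Ω lam mu u.der g.der - form Ω lam' mu' u'.der g.der =
      form Ω (fun x => lam x - lam' x) (fun x => mu x - mu' x) u'.der g.der -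
        form Ω lam mu w g.der := by
    rw [hcoef mu2 mg]
    have : form Ω lam mu w g.der = form Ω lam mu u'.der g.der - form Ω lam mu u.der g.der := by
      rw [hwd]
      rw [form_sub_left hm hb hl hmu mg mu2 mu1]
    rw [this]
    ring
  rw [e2]
  have k4 : 5 * η / 2 * N2 Ω u'.der + 5 * η / 2 * Γ ≤ ε / 4 := by
    refine le_trans ?_ hη3
    have k5 : 5 * η / 2 * N2 Ω u'.der ≤ 5 * η / 2 * (2 * A + 2 * (10 * η * A / c)) :=
      mul_le_mul_of_nonneg_left (n1.trans (by linarith)) (by positivity)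
    linarith
  have k6 : 5 * M ^ 2 / (2 * s) * X ≤ ε / 4 :=
    (mul_le_mul_of_nonneg_left hXb (by positivity)).trans hη2
  calc |form Ω (fun x => lam x - lam' x) (fun x => mu x - mu' x) u'.der g.der -
        form Ω lam mu w g.der|
      ≤ |form Ω (fun x => lam x - lam' x) (fun x => mu x - mu' x) u'.der g.der| +
        |form Ω lam mu w g.der| := abs_sub _ _
    _ ≤ ε / 4 + (ε / 4 + ε / 4) := add_le_add (b2.trans k4) (b3.trans (add_le_add k6 hsΓ))
    _ ≤ ε := by linarith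

end Vale.Agent.P136.H969
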