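import Vale.Agent.P136.Statement

open MeasureTheory Filter Topology
open scoped ContDiff

namespace Vale.Agent.P136.H969

open Vale.Agent.P136.Elasticity

/-- A class of admissible pairs of Lame moduli which is bounded in `C^∞`: `λ`, `μ` are smooth, all
their derivatives of order `k` are bounded by `B k` on `ℝ³`, for every `k`, and
`μ ≥ m`, `3 λ + 2 μ ≥ m` on the closure of `Ω`. -/
def InClass (Ω : Set E3) (m : ℝ) (B : ℕ → ℝ) (lam mu : E3 → ℝ) : Prop :=
  Smooth lam ∧ Smooth mu ∧ (∀ x ∈ closure Ω, m ≤ mu x ∧ m ≤ 3 * lam x + 2 * mu x) ∧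
    ∀ (k : ℕ) (x : E3), ‖iteratedFDeriv ℝ k lam x‖ ≤ B k ∧ ‖iteratedFDeriv ℝ k mu x‖ ≤ B k

end Vale.Agent.P136.H969
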