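import Vale.Agent.P136.H969.Main

set_option linter.all false

/-! Public forms. -/

open MeasureTheory Filter Topology
open scoped ContDiff

namespace Vale.Agent.P136.H969

open Vale.Agent.P136 Vale.Agent.P136.BD
open Vale.Agent.P136.Exist.Rough (SC)

lemma sc_public {Ω : Set E3} (ho : IsOpen Ω) (hb : Bornology.IsBounded Ω) {lam mu : E3 → ℝ}
    (h : Elasticity.Admissible Ω lam mu) : SC Ω lam mu := by
  obtain ⟨h4, h5⟩ := Rough.admissible_public ho hb h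
  exact Rough.sc_of h4 h5

theorem uniq_public {Ω : Set E3} (hΩ : Elasticity.SmoothDomain Ω) :
    ∀ l1 m1 l2 m2 : E3 → ℝ, SC Ω l1 m1 → SC Ω l2 m2 → SameDN Ω l1 m1 l2 m2 →
      ∀ x ∈ Ω, l1 x = l2 x ∧ m1 x = m2 x := by
  intro l1 m1 l2 m2 h1 h2 h
  have hT := Rough.smooth_tangentDomain hΩ
  exact Rough.global' hT.isOpen hT.isBounded hT.dense h1 h2 h

theorem stable_public {Ω : Set E3} (hΩ : Elasticity.SmoothDomain Ω) {m : ℝ} (hm : 0 < m)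
    (B : ℕ → ℝ) (k : ℕ) {ε : ℝ} (hε : 0 < ε) :
    ∃ δ > 0, ∃ S : Finset (Elasticity.H1 Ω), ∀ lam₁ mu₁ lam₂ mu₂ : E3 → ℝ,
      InClass Ω m B lam₁ mu₁ → InClass Ω m B lam₂ mu₂ →
      (∀ f ∈ S, ∀ g ∈ S, ∀ r₁ r₂ : ℝ, Elasticity.DN Ω lam₁ mu₁ f g r₁ →
        Elasticity.DN Ω lam₂ mu₂ f g r₂ → |r₁ - r₂| ≤ δ) →
      ∀ j ≤ k, ∀ x ∈ Ω, ‖iteratedFDeriv ℝ j lam₁ x - iteratedFDeriv ℝ j lam₂ x‖ ≤ ε ∧
        ‖iteratedFDeriv ℝ j mu₁ x - iteratedFDeriv ℝ j mu₂ x‖ ≤ ε :=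
  stable hΩ.isOpen hΩ.isBounded (uniq_public hΩ) hm B k hε

theorem existsUnique_public {Ω : Set E3} (ho : IsOpen Ω) (hb : Bornology.IsBounded Ω)
    {lam mu : E3 → ℝ} (h : Elasticity.Admissible Ω lam mu) (f g : Elasticity.H1 Ω) :
    ∃! r : ℝ, Elasticity.DN Ω lam mu f g r := by
  have s := sc_public ho hb h
  obtain ⟨u, hu, hw⟩ := Exist.Rough.exists_dirichlet ho hb s (Bridge.toH1 f)
  refine ⟨form Ω lam mu u.der (Bridge.toH1 g).der,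
    (Bridge.DN_iff _ _ _ _ _).2 ⟨u, hu, hw, rfl⟩, fun r hr => ?_⟩
  obtain ⟨u', hu', hw', rfl⟩ := (Bridge.DN_iff _ _ _ _ _).1 hr
  have key : ∀ ε > 0, |form Ω lam mu u.der (Bridge.toH1 g).der -
      form Ω lam mu u'.der (Bridge.toH1 g).der| ≤ ε := by
    intro ε hε
    obtain ⟨η, hη, H⟩ := dn_cont ho hb s (g := Bridge.toH1 g) hu hw hε
    exact H lam mu s.lam_smooth.continuous s.mu_smooth.continuous
      (fun x _ => by simp [hη.le]) u' hu' hw'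
  by_contra hne
  have hpos : 0 < |form Ω lam mu u.der (Bridge.toH1 g).der -
      form Ω lam mu u'.der (Bridge.toH1 g).der| := abs_pos.2 (sub_ne_zero.2 (Ne.symm hne))
  have := key _ (half_pos hpos)
  linarith

theorem cont_public {Ω : Set E3} (ho : IsOpen Ω) (hb : Bornology.IsBounded Ω)
    {lam mu : E3 → ℝ} (h : Elasticity.Admissible Ω lam mu) (f g : Elasticity.H1 Ω)
    {ε : ℝ} (hε : 0 < ε) :
    ∃ η > 0, ∀ lam' mu' : E3 → ℝ, Elasticity.Admissible Ω lam' mu' →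
      (∀ x ∈ Ω, |lam x - lam' x| ≤ η ∧ |mu x - mu' x| ≤ η) →
      ∀ r r' : ℝ, Elasticity.DN Ω lam mu f g r → Elasticity.DN Ω lam' mu' f g r' →
        |r - r'| ≤ ε := by
  have s := sc_public ho hb h
  obtain ⟨u, hu, hw⟩ := Exist.Rough.exists_dirichlet ho hb s (Bridge.toH1 f)
  obtain ⟨η, hη, H⟩ := dn_cont ho hb s (g := Bridge.toH1 g) hu hw hε
  refine ⟨η, hη, fun lam' mu' h' hd r r' hr hr' => ?_⟩
  have h1 : r = form Ω lam mu u.der (Bridge.toH1 g).der :=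
    (existsUnique_public ho hb h f g).unique hr
      ((Bridge.DN_iff _ _ _ _ _).2 ⟨u, hu, hw, rfl⟩)
  obtain ⟨u', hu', hw', rfl⟩ := (Bridge.DN_iff _ _ _ _ _).1 hr'
  rw [h1]
  exact H lam' mu' h'.1.continuous h'.2.1.continuous hd u' hu' hw'

end Vale.Agent.P136.H969
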