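import Vale.Agent.P136.H222.Final
import Mathlib.LinearAlgebra.Multilinear.FiniteDimensional

set_option linter.all false

/-! Limits of smooth functions with uniformly bounded derivatives along an ultrafilter. -/

open Filter Topology Set
open scoped ContDiff

namespace Vale.Agent.P136.H969

variable {ι : Type*} {E : Type*} [NormedAddCommGroup E] [NormedSpace ℝ E] [FiniteDimensional ℝ E]

/-- the spaces of continuous multilinear forms are finite dimensional. -/
theorem finDim (k : ℕ) : FiniteDimensional ℝ (E [×k]→L[ℝ] ℝ) := by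
  let L : (E [×k]→L[ℝ] ℝ) →ₗ[ℝ] MultilinearMap ℝ (fun _ : Fin k => E) ℝ :=
    { toFun := fun f => f.toMultilinearMap
      map_add' := fun _ _ => rfl
      map_smul' := fun _ _ => rfl }
  have hinj : Function.Injective L := fun a b h =>
    ContinuousMultilinearMap.toMultilinearMap_injective h
  exact Module.Finite.of_injective L hinj

/-- uniform convergence on compact sets from pointwise convergence and a uniform Lipschitz
bound. -/
theorem unif_of_lip {W : Type*} [NormedAddCommGroup W] {l : Filter ι} {f : ι → E → W} {g : E → W}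
    {C : ℝ} (hC : 0 ≤ C) (hf : ∀ n x y, ‖f n x - f n y‖ ≤ C * ‖x - y‖)
    (hg : ∀ x y, ‖g x - g y‖ ≤ C * ‖x - y‖)
    (hlim : ∀ x, Tendsto (fun n => f n x) l (𝓝 (g x))) {K : Set E} (hK : IsCompact K)
    {ε : ℝ} (hε : 0 < ε) : ∀ᶠ n in l, ∀ x ∈ K, ‖f n x - g x‖ ≤ ε := by
  obtain ⟨δ, hδ, hδC⟩ : ∃ δ > 0, C * δ ≤ ε / 3 := by
    refine ⟨ε / (3 * (C + 1)), by positivity, ?_⟩
    rw [mul_div_assoc', div_le_div_iff₀ (by positivity) (by positivity)]
    nlinarith
  obtain ⟨t, ht, hfin, hcov⟩ := hK.finite_cover_balls hδ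
  have hev : ∀ᶠ n in l, ∀ y ∈ t, ‖f n y - g y‖ ≤ ε / 3 := by
    rw [hfin.eventually_all]
    intro y hy
    have := (hlim y).eventually (Metric.closedBall_mem_nhds (g y) (by positivity : 0 < ε / 3))
    filter_upwards [this] with n hn
    rw [← dist_eq_norm]
    exact hn
  filter_upwards [hev] with n hn x hx
  obtain ⟨y, hy, hxy⟩ := mem_iUnion₂.1 (hcov hx)
  rw [Metric.mem_ball, dist_eq_norm] at hxy
  have h1 := hf n x y
  have h2 := hg y x
  have h3 := hn y hy
  have h4 : C * ‖x - y‖ ≤ ε / 3 := (mul_le_mul_of_nonneg_left hxy.le hC).trans hδC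
  have h5 : ‖y - x‖ = ‖x - y‖ := norm_sub_rev _ _
  rw [h5] at h2
  calc ‖f n x - g x‖ = ‖(f n x - f n y) + (f n y - g y) + (g y - g x)‖ := by congr 1; abel
    _ ≤ ‖f n x - f n y‖ + ‖f n y - g y‖ + ‖g y - g x‖ := norm_add₃_le
    _ ≤ ε := by linarith

/-- the compactness statement: along any ultrafilter, smooth functions with uniformly bounded
derivatives converge, with all derivatives and locally uniformly, to a smooth function. -/
theorem exists_limit (𝒰 : Ultrafilter ι) {F : ι → E → ℝ} (hF : ∀ n, ContDiff ℝ ∞ (F n))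
    {B : ℕ → ℝ} (hB : ∀ n k x, ‖iteratedFDeriv ℝ k (F n) x‖ ≤ B k) :
    ∃ f : E → ℝ, ContDiff ℝ ∞ f ∧
      ∀ k, (∀ x y, ‖iteratedFDeriv ℝ k f x - iteratedFDeriv ℝ k f y‖ ≤ B (k + 1) * ‖x - y‖) ∧
        ∀ K : Set E, IsCompact K → ∀ ε > 0, ∀ᶠ n in (𝒰 : Filter ι), ∀ x ∈ K,
          ‖iteratedFDeriv ℝ k (F n) x - iteratedFDeriv ℝ k f x‖ ≤ ε := by
  classical
  by_cases hι : Nonempty ι
  swap
  · exact absurd (𝒰.neBot.nonempty_of_mem univ_mem) (by
      rintro ⟨n, -⟩; exact hι ⟨n⟩)
  obtain ⟨n₀⟩ := hι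
  have hB0 : ∀ k, 0 ≤ B k := fun k => (norm_nonneg _).trans (hB n₀ k 0)
  -- pointwise limits
  have hex : ∀ k x, ∃ g : E [×k]→L[ℝ] ℝ,
      Tendsto (fun n => iteratedFDeriv ℝ k (F n) x) (𝒰 : Filter ι) (𝓝 g) := by
    intro k x
    haveI : FiniteDimensional ℝ (E [×k]→L[ℝ] ℝ) := finDim k
    haveI : ProperSpace (E [×k]→L[ℝ] ℝ) := FiniteDimensional.proper ℝ _
    have hc : IsCompact (Metric.closedBall (0 : E [×k]→L[ℝ] ℝ) (B k)) :=
      isCompact_closedBall _ _
    obtain ⟨g, -, hg⟩ := hc.ultrafilter_le_nhds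
      (𝒰.map (fun n => iteratedFDeriv ℝ k (F n) x)) (by
        rw [le_principal_iff]
        refine Filter.mem_map.2 (Filter.mem_of_superset univ_mem fun n _ => ?_)
        show iteratedFDeriv ℝ k (F n) x ∈ Metric.closedBall (0 : E [×k]→L[ℝ] ℝ) (B k)
        rw [mem_closedBall_zero_iff]
        exact hB n k x)
    exact ⟨g, hg⟩
  choose G hG using hex
  -- derivatives
  have hder : ∀ n k x, HasFDerivAt (iteratedFDeriv ℝ k (F n))
      (iteratedFDeriv ℝ (k + 1) (F n) x).curryLeft x := by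
    intro n k x
    have h1 : Differentiable ℝ (iteratedFDeriv ℝ k (F n)) :=
      (hF n).differentiable_iteratedFDeriv (by exact_mod_cast WithTop.coe_lt_top _ |>.trans_le le_rfl)
    have h2 := (h1 x).hasFDerivAt
    have h3 : fderiv ℝ (iteratedFDeriv ℝ k (F n)) x =
        (iteratedFDeriv ℝ (k + 1) (F n) x).curryLeft := by
      rw [fderiv_iteratedFDeriv]
      rfl
    rwa [h3] at h2
  have hlip : ∀ n k x y, ‖iteratedFDeriv ℝ k (F n) x - iteratedFDeriv ℝ k (F n) y‖ ≤
      B (k + 1) * ‖x - y‖ := by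
    intro n k x y
    refine Convex.norm_image_sub_le_of_norm_hasFDerivWithin_le (s := univ)
      (f' := fun z => (iteratedFDeriv ℝ (k + 1) (F n) z).curryLeft)
      (fun z _ => (hder n k z).hasFDerivWithinAt) (fun z _ => ?_) convex_univ (mem_univ y)
      (mem_univ x)
    rw [ContinuousMultilinearMap.curryLeft_norm]
    exact hB n (k + 1) z
  have hlipG : ∀ k x y, ‖G k x - G k y‖ ≤ B (k + 1) * ‖x - y‖ := by
    intro k x y
    refine le_of_tendsto ((hG k x).sub (hG k y)).norm (Eventually.of_forall fun n => ?_)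
    exact hlip n k x y
  have htay : ∀ k x y, ‖G k y - G k x - (G (k + 1) x).curryLeft (y - x)‖ ≤
      B (k + 2) * ‖y - x‖ * ‖y - x‖ := by
    intro k x y
    have hcont : Tendsto (fun n => (iteratedFDeriv ℝ (k + 1) (F n) x).curryLeft (y - x))
        (𝒰 : Filter ι) (𝓝 ((G (k + 1) x).curryLeft (y - x))) := by
      have hc : Continuous fun T : E [×(k + 1)]→L[ℝ] ℝ => T.curryLeft (y - x) := by
        have := (continuousMultilinearCurryLeftEquiv ℝ (fun _ : Fin (k + 1) => E) ℝ).continuous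
        exact (ContinuousLinearMap.apply ℝ _ (y - x)).continuous.comp this
      exact (hc.tendsto _).comp (hG (k + 1) x)
    refine le_of_tendsto (((hG k y).sub (hG k x)).sub hcont).norm
      (Eventually.of_forall fun n => ?_)
    have hconv : Convex ℝ (Metric.closedBall x ‖y - x‖) := convex_closedBall _ _
    have := Convex.norm_image_sub_le_of_norm_hasFDerivWithin_le'
      (f := iteratedFDeriv ℝ k (F n)) (s := Metric.closedBall x ‖y - x‖)
      (f' := fun z => (iteratedFDeriv ℝ (k + 1) (F n) z).curryLeft)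
      (φ := (iteratedFDeriv ℝ (k + 1) (F n) x).curryLeft) (C := B (k + 2) * ‖y - x‖)
      (fun z _ => (hder n k z).hasFDerivWithinAt) (fun z hz => ?_) hconv
      (x := x) (y := y) (Metric.mem_closedBall_self (norm_nonneg _))
      (by rw [mem_closedBall_iff_norm])
    · exact this
    · have e : (iteratedFDeriv ℝ (k + 1) (F n) z).curryLeft -
          (iteratedFDeriv ℝ (k + 1) (F n) x).curryLeft =
          (iteratedFDeriv ℝ (k + 1) (F n) z - iteratedFDeriv ℝ (k + 1) (F n) x).curryLeft := by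
        ext v w; simp
      rw [e, ContinuousMultilinearMap.curryLeft_norm]
      rw [mem_closedBall_iff_norm] at hz
      exact (hlip n (k + 1) z x).trans (mul_le_mul_of_nonneg_left hz (hB0 _))
  have hGder : ∀ k x, HasFDerivAt (G k) (G (k + 1) x).curryLeft x := by
    intro k x
    rw [hasFDerivAt_iff_isLittleO, Asymptotics.isLittleO_iff]
    intro c hc
    obtain ⟨δ, hδ, hδC⟩ : ∃ δ > 0, B (k + 2) * δ ≤ c := by
      refine ⟨c / (B (k + 2) + 1), by have := hB0 (k + 2); positivity, ?_⟩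
      have := hB0 (k + 2)
      rw [mul_div_assoc', div_le_iff₀ (by positivity)]
      nlinarith
    filter_upwards [Metric.ball_mem_nhds x hδ] with y hy
    rw [mem_ball_iff_norm] at hy
    refine (htay k x y).trans (mul_le_mul_of_nonneg_right ?_ (norm_nonneg _))
    exact (mul_le_mul_of_nonneg_left hy.le (hB0 _)).trans hδC
  let p : E → FormalMultilinearSeries ℝ E ℝ := fun x k => G k x
  have hT : HasFTaylorSeriesUpTo ∞ (fun x => (G 0 x).curry0) p := by
    rw [hasFTaylorSeriesUpTo_top_iff' le_rfl]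
    exact ⟨fun x => rfl, fun m x => hGder m x⟩
  have hcd : ContDiff ℝ ∞ (fun x => (G 0 x).curry0) := hT.contDiff
  have hid : ∀ k x, iteratedFDeriv ℝ k (fun x => (G 0 x).curry0) x = G k x := by
    intro k x
    have := hT.eq_iteratedFDeriv (m := k) (by exact_mod_cast le_top) x
    exact this.symm
  refine ⟨fun x => (G 0 x).curry0, hcd, fun k => ⟨fun x y => ?_, fun K hK ε hε => ?_⟩⟩
  · rw [hid, hid]
    exact hlipG k x y
  · simp only [hid]
    exact unif_of_lip (hB0 (k + 1)) (fun n x y => hlip n k x y) (hlipG k) (hG k) hK hε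

end Vale.Agent.P136.H969
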