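import Vale.Agent.P136.H969.Cont
import Vale.Agent.P136.H969.Defs

set_option linter.all false

/-! Stable determination from finitely many measurements. -/

open MeasureTheory Filter Topology
open scoped ContDiff

namespace Vale.Agent.P136.H969

open Vale.Agent.P136 Vale.Agent.P136.BD
open Vale.Agent.P136.Exist.Rough (SC)

lemma dn_limit_one {ι : Type*} {l : Filter ι} [NeBot l] {Ω : Set E3} (ho : IsOpen Ω)
    (hb : Bornology.IsBounded Ω) {l1 m1 l2 m2 : E3 → ℝ} (h1 : SC Ω l1 m1) (h2 : SC Ω l2 m2)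
    {a b c d : ι → E3 → ℝ} (hab : ∀ n, SC Ω (a n) (b n)) (hcd : ∀ n, SC Ω (c n) (d n))
    (conv1 : ∀ η > 0, ∀ᶠ n in l, ∀ x ∈ Ω, |l1 x - a n x| ≤ η ∧ |m1 x - b n x| ≤ η)
    (conv2 : ∀ η > 0, ∀ᶠ n in l, ∀ x ∈ Ω, |l2 x - c n x| ≤ η ∧ |m2 x - d n x| ≤ η)
    (close : ∀ f g : H1 Ω, ∀ δ > 0, ∀ᶠ n in l, ∀ r s, DN Ω (a n) (b n) f g r →
      DN Ω (c n) (d n) f g s → |r - s| ≤ δ) {f g : H1 Ω} {r : ℝ} (hr : DN Ω l1 m1 f g r) :
    DN Ω l2 m2 f g r := by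
  obtain ⟨u, hu, hw, rfl⟩ := hr
  obtain ⟨v, hv, hv2⟩ := Exist.Rough.exists_dirichlet ho hb h2 f
  refine ⟨v, hv, hv2, ?_⟩
  have key : ∀ ε > 0, |form Ω l1 m1 u.der g.der - form Ω l2 m2 v.der g.der| ≤ ε := by
    intro ε hε
    obtain ⟨η1, hη1, H1'⟩ := dn_cont ho hb h1 (g := g) hu hw (show 0 < ε / 3 by positivity)
    obtain ⟨η2, hη2, H2'⟩ := dn_cont ho hb h2 (g := g) hv hv2 (show 0 < ε / 3 by positivity)
    obtain ⟨n, ⟨e1, e2⟩, e3⟩ := (((conv1 η1 hη1).and (conv2 η2 hη2)).and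
      (close f g (ε / 3) (by positivity))).exists
    obtain ⟨un, hun, hun2⟩ := Exist.Rough.exists_dirichlet ho hb (hab n) f
    obtain ⟨vn, hvn, hvn2⟩ := Exist.Rough.exists_dirichlet ho hb (hcd n) f
    have b1 := H1' (a n) (b n) (hab n).lam_smooth.continuous (hab n).mu_smooth.continuous e1
      un hun hun2
    have b2 := H2' (c n) (d n) (hcd n).lam_smooth.continuous (hcd n).mu_smooth.continuous e2
      vn hvn hvn2
    have b3 := e3 _ _ ⟨un, hun, hun2, rfl⟩ ⟨vn, hvn, hvn2, rfl⟩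
    rw [abs_le] at b1 b2 b3 ⊢
    constructor <;> linarith [b1.1, b1.2, b2.1, b2.2, b3.1, b3.2]
  by_contra hne
  have hpos : 0 < |form Ω l1 m1 u.der g.der - form Ω l2 m2 v.der g.der| :=
    abs_pos.2 (sub_ne_zero.2 hne)
  have := key _ (half_pos hpos)
  linarith

lemma val_le {a b : E3 → ℝ} {x : E3} :
    |a x - b x| ≤ ‖iteratedFDeriv ℝ 0 a x - iteratedFDeriv ℝ 0 b x‖ := by
  have h := (iteratedFDeriv ℝ 0 a x - iteratedFDeriv ℝ 0 b x).le_opNorm (fun _ => 0)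
  simpa [Real.norm_eq_abs] using h

lemma sc_of_class {Ω : Set E3} (ho : IsOpen Ω) (hb : Bornology.IsBounded Ω) {m : ℝ} (hm : 0 < m)
    {lam mu : E3 → ℝ} (h1 : ContDiff ℝ ∞ lam) (h2 : ContDiff ℝ ∞ mu)
    (h3 : ∀ x ∈ closure Ω, m ≤ mu x ∧ m ≤ 3 * lam x + 2 * mu x) : SC Ω lam mu := by
  have ha : Elasticity.Admissible Ω lam mu :=
    ⟨h1, h2, fun x hx => ⟨hm.trans_le (h3 x hx).1, hm.trans_le (h3 x hx).2⟩⟩
  obtain ⟨h4, h5⟩ := Rough.admissible_public ho hb ha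
  exact Rough.sc_of h4 h5

theorem stable {Ω : Set E3} (ho : IsOpen Ω) (hb : Bornology.IsBounded Ω)
    (huniq : ∀ l1 m1 l2 m2 : E3 → ℝ, SC Ω l1 m1 → SC Ω l2 m2 → SameDN Ω l1 m1 l2 m2 →
      ∀ x ∈ Ω, l1 x = l2 x ∧ m1 x = m2 x)
    {m : ℝ} (hm : 0 < m) (B : ℕ → ℝ) (k : ℕ) {ε : ℝ} (hε : 0 < ε) :
    ∃ δ > 0, ∃ S : Finset (Elasticity.H1 Ω), ∀ lam₁ mu₁ lam₂ mu₂ : E3 → ℝ,
      InClass Ω m B lam₁ mu₁ → InClass Ω m B lam₂ mu₂ →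
      (∀ f ∈ S, ∀ g ∈ S, ∀ r₁ r₂ : ℝ, Elasticity.DN Ω lam₁ mu₁ f g r₁ →
        Elasticity.DN Ω lam₂ mu₂ f g r₂ → |r₁ - r₂| ≤ δ) →
      ∀ j ≤ k, ∀ x ∈ Ω, ‖iteratedFDeriv ℝ j lam₁ x - iteratedFDeriv ℝ j lam₂ x‖ ≤ ε ∧
        ‖iteratedFDeriv ℝ j mu₁ x - iteratedFDeriv ℝ j mu₂ x‖ ≤ ε := by
  classical
  by_contra hcon
  push Not at hcon
  have hcon' : ∀ n : Finset (Elasticity.H1 Ω) × ℕ, ∃ lam₁ mu₁ lam₂ mu₂ : E3 → ℝ,
      InClass Ω m B lam₁ mu₁ ∧ InClass Ω m B lam₂ mu₂ ∧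
      (∀ f ∈ n.1, ∀ g ∈ n.1, ∀ r₁ r₂ : ℝ, Elasticity.DN Ω lam₁ mu₁ f g r₁ →
        Elasticity.DN Ω lam₂ mu₂ f g r₂ → |r₁ - r₂| ≤ 1 / ((n.2 : ℝ) + 1)) ∧
      ∃ j ≤ k, ∃ x ∈ Ω, ‖iteratedFDeriv ℝ j lam₁ x - iteratedFDeriv ℝ j lam₂ x‖ ≤ ε →
        ε < ‖iteratedFDeriv ℝ j mu₁ x - iteratedFDeriv ℝ j mu₂ x‖ := fun n =>
    hcon (1 / ((n.2 : ℝ) + 1)) (by positivity) n.1
  choose a b c d hab hcd hclose jj hjj xx hxx hfar using hcon'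
  obtain ⟨𝒰, h𝒰⟩ : ∃ 𝒰 : Ultrafilter (Finset (Elasticity.H1 Ω) × ℕ),
      (𝒰 : Filter (Finset (Elasticity.H1 Ω) × ℕ)) ≤ atTop :=
    ⟨Ultrafilter.of atTop, Ultrafilter.of_le _⟩
  obtain ⟨l1, sl1, Hl1⟩ := exists_limit 𝒰 (F := a) (fun n => (hab n).1)
    (fun n j x => ((hab n).2.2.2 j x).1)
  obtain ⟨m1, sm1, Hm1⟩ := exists_limit 𝒰 (F := b) (fun n => (hab n).2.1)
    (fun n j x => ((hab n).2.2.2 j x).2)
  obtain ⟨l2, sl2, Hl2⟩ := exists_limit 𝒰 (F := c) (fun n => (hcd n).1)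
    (fun n j x => ((hcd n).2.2.2 j x).1)
  obtain ⟨m2, sm2, Hm2⟩ := exists_limit 𝒰 (F := d) (fun n => (hcd n).2.1)
    (fun n j x => ((hcd n).2.2.2 j x).2)
  have hK : IsCompact (closure Ω) := hb.isCompact_closure
  -- pointwise convergence
  have pw : ∀ {F : Finset (Elasticity.H1 Ω) × ℕ → E3 → ℝ} {f : E3 → ℝ},
      (∀ k, (∀ x y, ‖iteratedFDeriv ℝ k f x - iteratedFDeriv ℝ k f y‖ ≤ B (k + 1) * ‖x - y‖) ∧
        ∀ K : Set E3, IsCompact K → ∀ ε > 0, ∀ᶠ n in (𝒰 : Filter _), ∀ x ∈ K,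
          ‖iteratedFDeriv ℝ k (F n) x - iteratedFDeriv ℝ k f x‖ ≤ ε) →
      ∀ η > 0, ∀ᶠ n in (𝒰 : Filter _), ∀ x ∈ closure Ω, |F n x - f x| ≤ η := by
    intro F f H η hη
    filter_upwards [(H 0).2 _ hK η hη] with n hn x hx
    exact val_le.trans (hn x hx)
  have lower : ∀ {F G : Finset (Elasticity.H1 Ω) × ℕ → E3 → ℝ} {f g : E3 → ℝ},
      (∀ η > 0, ∀ᶠ n in (𝒰 : Filter _), ∀ x ∈ closure Ω, |F n x - f x| ≤ η) →
      (∀ η > 0, ∀ᶠ n in (𝒰 : Filter _), ∀ x ∈ closure Ω, |G n x - g x| ≤ η) →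
      (∀ n, ∀ x ∈ closure Ω, m ≤ G n x ∧ m ≤ 3 * F n x + 2 * G n x) →
      ∀ x ∈ closure Ω, m ≤ g x ∧ m ≤ 3 * f x + 2 * g x := by
    intro F G f g HF HG Hm x hx
    refine ⟨le_of_forall_pos_le_add fun η hη => ?_, le_of_forall_pos_le_add fun η hη => ?_⟩
    · obtain ⟨n, hn⟩ := (HG η hη).exists
      have h1 := abs_le.1 (hn x hx)
      linarith [(Hm n x hx).1, h1.1, h1.2]
    · obtain ⟨n, hn, hn'⟩ := ((HG (η / 5) (by positivity)).and (HF (η / 5) (by positivity))).exists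
      have h1 := abs_le.1 (hn x hx)
      have h2 := abs_le.1 (hn' x hx)
      linarith [(Hm n x hx).2, h1.1, h1.2, h2.1, h2.2]
  have s1 : SC Ω l1 m1 := sc_of_class ho hb hm sl1 sm1
    (lower (pw Hl1) (pw Hm1) fun n => (hab n).2.2.1)
  have s2 : SC Ω l2 m2 := sc_of_class ho hb hm sl2 sm2
    (lower (pw Hl2) (pw Hm2) fun n => (hcd n).2.2.1)
  have sab : ∀ n, SC Ω (a n) (b n) := fun n =>
    sc_of_class ho hb hm (hab n).1 (hab n).2.1 (hab n).2.2.1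
  have scd : ∀ n, SC Ω (c n) (d n) := fun n =>
    sc_of_class ho hb hm (hcd n).1 (hcd n).2.1 (hcd n).2.2.1
  have cv : ∀ {F G : Finset (Elasticity.H1 Ω) × ℕ → E3 → ℝ} {f g : E3 → ℝ},
      (∀ η > 0, ∀ᶠ n in (𝒰 : Filter _), ∀ x ∈ closure Ω, |F n x - f x| ≤ η) →
      (∀ η > 0, ∀ᶠ n in (𝒰 : Filter _), ∀ x ∈ closure Ω, |G n x - g x| ≤ η) →
      ∀ η > 0, ∀ᶠ n in (𝒰 : Filter _), ∀ x ∈ Ω, |f x - F n x| ≤ η ∧ |g x - G n x| ≤ η := by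
    intro F G f g HF HG η hη
    filter_upwards [HF η hη, HG η hη] with n h1 h2 x hx
    exact ⟨by rw [abs_sub_comm]; exact h1 x (subset_closure hx),
      by rw [abs_sub_comm]; exact h2 x (subset_closure hx)⟩
  have cl : ∀ f g : H1 Ω, ∀ δ > 0, ∀ᶠ n in (𝒰 : Filter _), ∀ r s, DN Ω (a n) (b n) f g r →
      DN Ω (c n) (d n) f g s → |r - s| ≤ δ := by
    intro f g δ hδ
    obtain ⟨N, hN⟩ := exists_nat_one_div_lt hδ
    have hev : ∀ᶠ n in (𝒰 : Filter (Finset (Elasticity.H1 Ω) × ℕ)),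
        (({Bridge.ofH1 f, Bridge.ofH1 g} : Finset (Elasticity.H1 Ω)), N) ≤ n :=
      h𝒰 (eventually_ge_atTop _)
    filter_upwards [hev] with n hn r s hr hs
    have hf : Bridge.ofH1 f ∈ n.1 := hn.1 (by simp)
    have hg : Bridge.ofH1 g ∈ n.1 := hn.1 (by simp)
    have hN2 : (N : ℝ) ≤ n.2 := by exact_mod_cast hn.2
    have h1 := hclose n _ hf _ hg r s ((Bridge.DN_iff _ _ _ _ _).2 hr)
      ((Bridge.DN_iff _ _ _ _ _).2 hs)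
    refine h1.trans (le_trans ?_ hN.le)
    exact one_div_le_one_div_of_le (by positivity) (by linarith)
  have same : SameDN Ω l1 m1 l2 m2 := by
    intro f g r
    constructor
    · intro h
      exact dn_limit_one ho hb s1 s2 sab scd (cv (pw Hl1) (pw Hm1)) (cv (pw Hl2) (pw Hm2)) cl h
    · intro h
      refine dn_limit_one ho hb s2 s1 scd sab (cv (pw Hl2) (pw Hm2)) (cv (pw Hl1) (pw Hm1)) ?_ h
      intro f g δ hδ
      filter_upwards [cl f g δ hδ] with n hn r s hr hs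
      rw [abs_sub_comm]
      exact hn s r hs hr
  have heq := huniq l1 m1 l2 m2 s1 s2 same
  have hl : ∀ j, ∀ x ∈ Ω, iteratedFDeriv ℝ j l1 x = iteratedFDeriv ℝ j l2 x := by
    intro j x hx
    have : l1 =ᶠ[𝓝 x] l2 := by
      filter_upwards [ho.mem_nhds hx] with y hy using (heq y hy).1
    exact (this.iteratedFDeriv ℝ j).eq_of_nhds
  have hmm : ∀ j, ∀ x ∈ Ω, iteratedFDeriv ℝ j m1 x = iteratedFDeriv ℝ j m2 x := by
    intro j x hx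
    have : m1 =ᶠ[𝓝 x] m2 := by
      filter_upwards [ho.mem_nhds hx] with y hy using (heq y hy).2
    exact (this.iteratedFDeriv ℝ j).eq_of_nhds
  have all : ∀ {F : Finset (Elasticity.H1 Ω) × ℕ → E3 → ℝ} {f : E3 → ℝ},
      (∀ k, (∀ x y, ‖iteratedFDeriv ℝ k f x - iteratedFDeriv ℝ k f y‖ ≤ B (k + 1) * ‖x - y‖) ∧
        ∀ K : Set E3, IsCompact K → ∀ ε > 0, ∀ᶠ n in (𝒰 : Filter _), ∀ x ∈ K,
          ‖iteratedFDeriv ℝ k (F n) x - iteratedFDeriv ℝ k f x‖ ≤ ε) →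
      ∀ᶠ n in (𝒰 : Filter _), ∀ j ∈ Finset.range (k + 1), ∀ x ∈ closure Ω,
        ‖iteratedFDeriv ℝ j (F n) x - iteratedFDeriv ℝ j f x‖ ≤ ε / 2 := by
    intro F f H
    rw [Filter.eventually_all_finset]
    intro j _
    exact (H j).2 _ hK (ε / 2) (by positivity)
  obtain ⟨n, ⟨⟨h1, h2⟩, h3⟩, h4⟩ := ((((all Hl1).and (all Hm1)).and (all Hl2)).and
    (all Hm2)).exists
  have hj : jj n ∈ Finset.range (k + 1) := Finset.mem_range.2 (Nat.lt_succ_of_le (hjj n))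
  have hx := subset_closure (hxx n)
  have q1 := h1 _ hj _ hx
  have q2 := h2 _ hj _ hx
  have q3 := h3 _ hj _ hx
  have q4 := h4 _ hj _ hx
  rw [← hl _ _ (hxx n)] at q3
  rw [← hmm _ _ (hxx n)] at q4
  have tri : ∀ {W : Type} [NormedAddCommGroup W] {p q r : W}, ‖p - r‖ ≤ ε / 2 → ‖q - r‖ ≤ ε / 2 →
      ‖p - q‖ ≤ ε := by
    intro W _ p q r hp hq
    calc ‖p - q‖ = ‖(p - r) - (q - r)‖ := by congr 1; abel
      _ ≤ ‖p - r‖ + ‖q - r‖ := norm_sub_le _ _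
      _ ≤ ε := by linarith
  exact absurd (hfar n (tri q1 q3)) (not_lt.2 (tri q2 q4))

end Vale.Agent.P136.H969
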